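import Mathlib
import Vale.Agent.P161.Defs
import Vale.Agent.P161.Tree
import Vale.Agent.P161.TreeIsing

/-!
# The free Ising measure on a tree: existence, Markov structure, uniqueness
-/

open MeasureTheory ProbabilityTheory Finset

namespace Vale.Agent.P161

universe u

variable {V : Type u} {G : SimpleGraph V} {θ : ℝ}

theorem spin_decide_pos {x : ℝ} (hx : x = 1 ∨ x = -1) : spin (decide (0 < x)) = x := by
  rcases hx with rfl | rfl
  · simp [spin]
  · have : ¬ ((0 : ℝ) < -1) := by norm_num
    simp [spin, this]

theorem prod_spin_eq_or {ι : Type*} (I : Finset ι) (x : ι → Bool) :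
    ∏ u ∈ I, spin (x u) = 1 ∨ ∏ u ∈ I, spin (x u) = -1 := by
  classical
  induction I using Finset.induction_on with
  | empty => simp
  | insert a I ha ih =>
    rw [Finset.prod_insert ha]
    rcases spin_eq_or (x a) with h | h <;> rcases ih with h' | h' <;> simp [h, h']

theorem integral_mul_of_disjoint (P : V → Measure Bool) [∀ v, IsProbabilityMeasure (P v)]
    (I J : Finset V) (hIJ : Disjoint I J) (F H : (V → Bool) → ℝ)
    (hF : DependsOn F (I : Set V)) (hH : DependsOn H (J : Set V)) :
    ∫ x, F x * H x ∂(Measure.infinitePi P) =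
      (∫ x, F x ∂(Measure.infinitePi P)) * (∫ x, H x ∂(Measure.infinitePi P)) := by
  have hind : iIndepFun (fun (i : V) (ω : V → Bool) ↦ (fun b : Bool => b) (ω i))
      (Measure.infinitePi P) :=
    iIndepFun_infinitePi (P := P) (X := fun _ b => b) (fun i => measurable_id)
  have h2 := hind.indepFun_finset I J hIJ (fun i => measurable_pi_apply i)
  obtain ⟨f, rfl⟩ := dependsOn_iff_exists_comp.1 hF
  obtain ⟨h, rfl⟩ := dependsOn_iff_exists_comp.1 hH
  have hfm : Measurable f := measurable_of_finite f
  have hhm : Measurable h := measurable_of_finite h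
  have h3 := h2.comp hfm hhm
  exact h3.integral_fun_mul_eq_mul_integral
    (measurable_of_dependsOn _ I hF).aestronglyMeasurable
    (measurable_of_dependsOn _ J hH).aestronglyMeasurable

/-! ## Ancestors in a rooted tree -/

/-- The path from `o` to `v`. -/
noncomputable def tpath (hG : G.IsTree) (o v : V) : G.Walk o v :=
  (hG.existsUnique_path o v).choose

theorem tpath_isPath (hG : G.IsTree) (o v : V) : (tpath hG o v).IsPath :=
  (hG.existsUnique_path o v).choose_spec.1

theorem tpath_unique (hG : G.IsTree) {o v : V} {p : G.Walk o v} (hp : p.IsPath) :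
    p = tpath hG o v :=
  (hG.existsUnique_path o v).choose_spec.2 p hp

theorem length_tpath (hG : G.IsTree) (o v : V) : (tpath hG o v).length = G.dist o v := by
  obtain ⟨p, hp⟩ := hG.connected.exists_walk_length_eq_dist o v
  rw [← tpath_unique hG (SimpleGraph.Walk.isPath_of_length_eq_dist p hp)]
  exact hp

open Classical in
/-- The vertices of the path from `o` to `v`. -/
noncomputable def anc (hG : G.IsTree) (o v : V) : Finset V :=
  (tpath hG o v).support.toFinset

theorem anc_self (hG : G.IsTree) (o : V) : anc hG o o = {o} := by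
  classical
  have h : (SimpleGraph.Walk.nil : G.Walk o o) = tpath hG o o :=
    tpath_unique hG SimpleGraph.Walk.IsPath.nil
  unfold anc
  rw [← h]
  simp

theorem tpath_child (hG : G.IsTree) {o v v' : V} (h : G.Adj v v')
    (hd : G.dist o v' = G.dist o v + 1) :
    (tpath hG o v).concat h = tpath hG o v' := by
  apply tpath_unique
  apply SimpleGraph.Walk.isPath_of_length_eq_dist
  rw [SimpleGraph.Walk.length_concat, length_tpath, hd]

open Classical in
theorem anc_child (hG : G.IsTree) {o v v' : V} (h : G.Adj v v')
    (hd : G.dist o v' = G.dist o v + 1) :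
    anc hG o v' = insert v' (anc hG o v) := by
  unfold anc
  rw [← tpath_child hG h hd, SimpleGraph.Walk.support_concat]
  ext x
  simp

theorem notMem_anc_child (hG : G.IsTree) {o v v' : V} (h : G.Adj v v')
    (hd : G.dist o v' = G.dist o v + 1) : v' ∉ anc hG o v := by
  classical
  unfold anc
  have h1 := tpath_isPath hG o v'
  rw [← tpath_child hG h hd] at h1
  have h2 := h1.support_nodup
  rw [SimpleGraph.Walk.support_concat, List.nodup_append] at h2
  intro hmem
  exact h2.2.2 v' (List.mem_toFinset.1 hmem) v' (by simp) rfl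

theorem root_mem_anc (hG : G.IsTree) (o v : V) : o ∈ anc hG o v := by
  classical
  unfold anc
  rw [List.mem_toFinset]
  exact SimpleGraph.Walk.start_mem_support _

theorem self_mem_anc (hG : G.IsTree) (o v : V) : v ∈ anc hG o v := by
  classical
  unfold anc
  rw [List.mem_toFinset]
  exact SimpleGraph.Walk.end_mem_support _

/-- If `a` is on the `v`-side of the edge `v v'` (with `v'` further from the root), then so are all
its ancestors. -/
theorem anc_side (hG : G.IsTree) {o v v' : V} (h : G.Adj v v')
    (hd : G.dist o v' = G.dist o v + 1) (a : V) (ha : G.dist v a < G.dist v' a) :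
    ∀ u ∈ anc hG o a, G.dist v u < G.dist v' u := by
  classical
  have ho : G.dist v o < G.dist v' o := by
    rw [G.dist_comm (u := v), G.dist_comm (u := v')]; omega
  induction hn : G.dist o a generalizing a with
  | zero =>
    have : o = a := (hG.connected.dist_eq_zero_iff).1 hn
    subst this
    intro u hu
    rw [anc_self, Finset.mem_singleton] at hu
    rw [hu]; exact ho
  | succ n ih =>
    have hne : a ≠ o := by
      rintro rfl
      simp at hn
    obtain ⟨p, hp1, hp2⟩ := exists_adj_dist hG.connected hne
    rw [G.dist_comm (u := p), G.dist_comm (u := a)] at hp2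
    have hps : G.dist v p < G.dist v' p := by
      by_contra hcon
      have hne2 := IsTree.dist_ne hG h p
      have hlt : G.dist v' p < G.dist v p := by omega
      obtain ⟨e1, e2⟩ := IsTree.cross hG h hp1.symm hlt ha
      subst e1; subst e2
      omega
    rw [anc_child hG hp1.symm (by omega)]
    intro u hu
    rcases Finset.mem_insert.1 hu with rfl | hu
    · exact ha
    · exact ih p hps (by omega) u hu

/-- If `b` is on the `v'`-side, then the ancestors of `b` are the ancestors of `v'` and vertices on
the `v'`-side other than `v'`. -/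
theorem anc_side' (hG : G.IsTree) {o v v' : V} (h : G.Adj v v')
    (hd : G.dist o v' = G.dist o v + 1) (b : V) (hb : G.dist v' b < G.dist v b) :
    anc hG o v' ⊆ anc hG o b ∧
      ∀ u ∈ anc hG o b, u ∉ anc hG o v' → G.dist v' u < G.dist v u := by
  classical
  have ho : G.dist v o < G.dist v' o := by
    rw [G.dist_comm (u := v), G.dist_comm (u := v')]; omega
  induction hn : G.dist o b generalizing b with
  | zero =>
    have : o = b := (hG.connected.dist_eq_zero_iff).1 hn
    subst this
    omega
  | succ n ih =>
    have hne : b ≠ o := by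
      rintro rfl
      simp at hn
    by_cases hbv : b = v'
    · subst hbv
      exact ⟨subset_rfl, fun u hu hu' => absurd hu hu'⟩
    · obtain ⟨p, hp1, hp2⟩ := exists_adj_dist hG.connected hne
      rw [G.dist_comm (u := p), G.dist_comm (u := b)] at hp2
      have hps : G.dist v' p < G.dist v p := by
        by_contra hcon
        have hne2 := IsTree.dist_ne hG h p
        have hlt : G.dist v p < G.dist v' p := by omega
        exact hbv (IsTree.cross hG h hp1 hb hlt).1
      obtain ⟨i1, i2⟩ := ih p hps (by omega)
      rw [anc_child hG hp1.symm (by omega)]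
      refine ⟨i1.trans (Finset.subset_insert _ _), ?_⟩
      intro u hu hu'
      rcases Finset.mem_insert.1 hu with rfl | hu
      · exact hb
      · exact i2 u hu hu'

/-! ## The one-site laws -/

/-- The law on `Bool` giving `spin` the mean `θ`. -/
noncomputable def bern (θ : ℝ) : Measure Bool :=
  ENNReal.ofReal ((1 + θ) / 2) • Measure.dirac true +
    ENNReal.ofReal ((1 - θ) / 2) • Measure.dirac false

theorem isProbabilityMeasure_bern (h0 : 0 ≤ θ) (h1 : θ ≤ 1) : IsProbabilityMeasure (bern θ) := by
  constructor
  simp only [bern, Measure.coe_add, Measure.coe_smul, Pi.add_apply, Pi.smul_apply, measure_univ,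
    smul_eq_mul, mul_one]
  rw [← ENNReal.ofReal_add (by linarith) (by linarith)]
  norm_num [← add_div]

theorem integral_bern (h0 : 0 ≤ θ) (h1 : θ ≤ 1) : ∫ b, spin b ∂(bern θ) = θ := by
  have hi : ∀ b : Bool, Integrable spin (Measure.dirac b) := fun b => by
    exact integrable_dirac (by simp)
  rw [bern, integral_add_measure, integral_smul_measure, integral_smul_measure,
    integral_dirac, integral_dirac, ENNReal.toReal_ofReal (by linarith),
    ENNReal.toReal_ofReal (by linarith), spin_true, spin_false]
  · simp only [smul_eq_mul]; ring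
  · exact (hi _).smul_measure ENNReal.ofReal_ne_top
  · exact (hi _).smul_measure ENNReal.ofReal_ne_top

open Classical in
/-- The family of one-site laws: symmetric at the root, biased elsewhere. -/
noncomputable def siteLaw (θ : ℝ) (o : V) (v : V) : Measure Bool :=
  if v = o then bern 0 else bern θ

theorem isProbabilityMeasure_siteLaw (h0 : 0 ≤ θ) (h1 : θ ≤ 1) (o v : V) :
    IsProbabilityMeasure (siteLaw θ o v) := by
  unfold siteLaw
  split_ifs
  · exact isProbabilityMeasure_bern le_rfl zero_le_one
  · exact isProbabilityMeasure_bern h0 h1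

theorem integral_spin_infinitePi (P : V → Measure Bool) [∀ v, IsProbabilityMeasure (P v)]
    (v : V) : ∫ x, spin (x v) ∂(Measure.infinitePi P) = ∫ b, spin b ∂(P v) := by
  have h := measurePreserving_eval_infinitePi P v
  rw [← h.map_eq, integral_map]
  · exact (measurable_pi_apply v).aemeasurable
  · exact (measurable_of_finite spin).aestronglyMeasurable

/-! ## The map from one-site variables to spins -/

/-- The spin at `v` is the product of the one-site variables along the path from the root. -/
noncomputable def spinMap (hG : G.IsTree) (o : V) (x : V → Bool) (v : V) : Bool :=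
  open Classical in decide (0 < ∏ u ∈ anc hG o v, spin (x u))

theorem spin_spinMap (hG : G.IsTree) (o : V) (x : V → Bool) (v : V) :
    spin (spinMap hG o x v) = ∏ u ∈ anc hG o v, spin (x u) := by
  have := spin_decide_pos (prod_spin_eq_or (anc hG o v) x)
  rw [← this]
  unfold spinMap
  congr

open Classical in
theorem dependsOn_comp_spinMap {β : Type*} (hG : G.IsTree) (o : V) (F : (V → Bool) → β)
    (A : Finset V) (hF : DependsOn F (A : Set V)) :
    DependsOn (fun x => F (spinMap hG o x)) ((A.biUnion (anc hG o) : Finset V) : Set V) := by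
  intro x y hxy
  apply hF
  intro a ha
  unfold spinMap
  have : ∏ u ∈ anc hG o a, spin (x u) = ∏ u ∈ anc hG o a, spin (y u) := by
    apply Finset.prod_congr rfl
    intro u hu
    rw [hxy u (by simpa using ⟨a, ha, hu⟩)]
  rw [this]

theorem measurable_spinMap (hG : G.IsTree) (o : V) : Measurable (spinMap hG o) := by
  classical
  apply measurable_pi_lambda
  intro v
  apply measurable_of_dependsOn _ (({v} : Finset V).biUnion (anc hG o))
  exact dependsOn_comp_spinMap hG o (fun s => s v) {v} (fun x y h => h v (by simp))

/-- The free Ising measure on a tree. -/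
noncomputable def isingMeasure (hG : G.IsTree) (θ : ℝ) (o : V) : Measure (V → Bool) :=
  (Measure.infinitePi (siteLaw θ o)).map (spinMap hG o)

theorem DependsOn.mul' {F H : (V → Bool) → ℝ} {I J : Set V}
    (hF : DependsOn F I) (hH : DependsOn H J) : DependsOn (fun x => F x * H x) (I ∪ J) := by
  intro x y hxy
  change F x * H x = F y * H y
  rw [hF (fun i hi => hxy i (Or.inl hi)), hH (fun i hi => hxy i (Or.inr hi))]

theorem dependsOn_spin (v : V) :
    DependsOn (fun x : V → Bool => spin (x v)) (({v} : Finset V) : Set V) := by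
  intro x y hxy
  change spin (x v) = spin (y v)
  rw [hxy v (by simp)]

theorem dependsOn_prod (I : Finset V) :
    DependsOn (fun x : V → Bool => ∏ u ∈ I, spin (x u)) (I : Set V) := by
  intro x y hxy
  exact Finset.prod_congr rfl fun u hu => by rw [hxy u hu]

/-- The mean of the product of the one-site variables along a path from the root is zero. -/
theorem integral_prod_anc (hG : G.IsTree) (h0 : 0 ≤ θ) (h1 : θ ≤ 1) (o v : V) :
    ∫ x, ∏ u ∈ anc hG o v, spin (x u) ∂(Measure.infinitePi (siteLaw θ o)) = 0 := by
  classical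
  have hpr : ∀ v, IsProbabilityMeasure (siteLaw θ o v) := isProbabilityMeasure_siteLaw h0 h1 o
  have h2 : ∀ x : V → Bool, ∏ u ∈ anc hG o v, spin (x u) =
      spin (x o) * ∏ u ∈ (anc hG o v).erase o, spin (x u) := fun x =>
    (Finset.mul_prod_erase _ (fun u => spin (x u)) (root_mem_anc hG o v)).symm
  simp_rw [h2]
  rw [integral_mul_of_disjoint (siteLaw θ o) {o} ((anc hG o v).erase o)
    (by simp) (fun x => spin (x o)) (fun x => ∏ u ∈ (anc hG o v).erase o, spin (x u))
    (dependsOn_spin o) (dependsOn_prod _), integral_spin_infinitePi]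
  have h3 : siteLaw θ o o = bern 0 := by simp [siteLaw]
  rw [h3, integral_bern le_rfl zero_le_one, zero_mul]

theorem edge_split_child (hG : G.IsTree) (h0 : 0 ≤ θ) (h1 : θ ≤ 1) (o : V) {v v' : V}
    (h : G.Adj v v') (hd : G.dist o v' = G.dist o v + 1) (A B : Finset V)
    (hA : ∀ a ∈ A, G.dist v a < G.dist v' a) (hB : ∀ b ∈ B, G.dist v' b < G.dist v b)
    (f g : (V → Bool) → ℝ) (hf : DependsOn f (A : Set V)) (hg : DependsOn g (B : Set V)) :
    ∫ s, f s * g s ∂(isingMeasure hG θ o) =
      (∫ s, f s ∂(isingMeasure hG θ o)) * (∫ s, g s ∂(isingMeasure hG θ o)) +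
        θ * (∫ s, spin (s v) * f s ∂(isingMeasure hG θ o)) *
          (∫ s, spin (s v') * g s ∂(isingMeasure hG θ o)) := by
  classical
  have hpr : ∀ v, IsProbabilityMeasure (siteLaw θ o v) := isProbabilityMeasure_siteLaw h0 h1 o
  set P : Measure (V → Bool) := Measure.infinitePi (siteLaw θ o) with hPdef
  have hPprob : IsProbabilityMeasure P := by rw [hPdef]; infer_instance
  -- change of variables
  have hcv : ∀ (F : (V → Bool) → ℝ) (I : Finset V), DependsOn F (I : Set V) →
      ∫ s, F s ∂(isingMeasure hG θ o) = ∫ x, F (spinMap hG o x) ∂P := by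
    intro F I hF
    rw [isingMeasure, integral_map (measurable_spinMap hG o).aemeasurable
      (measurable_of_dependsOn F I hF).aestronglyMeasurable]
  have hfg : DependsOn (fun s => f s * g s) ((A ∪ B : Finset V) : Set V) := by
    rw [Finset.coe_union]; exact DependsOn.mul' hf hg
  have hvf : DependsOn (fun s : V → Bool => spin (s v) * f s) (({v} ∪ A : Finset V) : Set V) := by
    rw [Finset.coe_union]; exact DependsOn.mul' (dependsOn_spin v) hf
  have hvg : DependsOn (fun s : V → Bool => spin (s v') * g s)
      (({v'} ∪ B : Finset V) : Set V) := by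
    rw [Finset.coe_union]; exact DependsOn.mul' (dependsOn_spin v') hg
  rw [hcv _ _ hfg, hcv _ _ hf, hcv _ _ hg, hcv _ _ hvf, hcv _ _ hvg]
  -- the three blocks of variables
  set I : Finset V := A.biUnion (anc hG o) ∪ anc hG o v with hI
  set J : Finset V := B.biUnion (fun b => anc hG o b \ anc hG o v') with hJ
  have hIside : ∀ u ∈ I, G.dist v u < G.dist v' u := by
    intro u hu
    rw [hI, Finset.mem_union, Finset.mem_biUnion] at hu
    rcases hu with ⟨a, ha, hu⟩ | hu
    · exact anc_side hG h hd a (hA a ha) u hu
    · refine anc_side hG h hd v ?_ u hu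
      have : G.dist v' v = 1 := SimpleGraph.dist_eq_one_iff_adj.2 h.symm
      simp [this]
  have hJside : ∀ u ∈ J, G.dist v' u < G.dist v u ∧ u ≠ v' := by
    intro u hu
    rw [hJ, Finset.mem_biUnion] at hu
    obtain ⟨b, hb, hu⟩ := hu
    rw [Finset.mem_sdiff] at hu
    refine ⟨(anc_side' hG h hd b (hB b hb)).2 u hu.1 hu.2, ?_⟩
    rintro rfl
    exact hu.2 (self_mem_anc hG o u)
  have hv'I : v' ∉ I := by
    intro hmem
    have := hIside v' hmem
    simp at this
  have hIJ : Disjoint I J := by
    rw [Finset.disjoint_left]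
    intro u hu hu'
    have h1 := hIside u hu
    have h2 := (hJside u hu').1
    omega
  have hv'J : Disjoint ({v'} : Finset V) J := by
    rw [Finset.disjoint_singleton_left]
    intro hmem
    exact (hJside v' hmem).2 rfl
  have hIv'J : Disjoint I ({v'} ∪ J : Finset V) := by
    rw [Finset.disjoint_union_right]
    exact ⟨by rw [Finset.disjoint_singleton_right]; exact hv'I, hIJ⟩
  -- abbreviations
  set σv : (V → Bool) → ℝ := fun x => ∏ u ∈ anc hG o v, spin (x u) with hσv
  set F : (V → Bool) → ℝ := fun x => f (spinMap hG o x) with hF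
  set H : ℝ → (V → Bool) → ℝ := fun ε x =>
    g (fun b => decide (0 < ε * ∏ u ∈ anc hG o b \ anc hG o v', spin (x u))) with hH
  set ge : (V → Bool) → ℝ := fun x => (H 1 x + H (-1) x) / 2 with hge
  set go : (V → Bool) → ℝ := fun x => (H 1 x - H (-1) x) / 2 with hgo
  have hFdep : DependsOn F (I : Set V) := by
    refine (dependsOn_comp_spinMap hG o f A hf).mono ?_
    intro u hu
    exact Finset.mem_union_left _ hu
  have hσdep : DependsOn σv (I : Set V) := by
    refine (dependsOn_prod (anc hG o v)).mono ?_
    intro u hu
    exact Finset.mem_union_right _ hu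
  have hHdep : ∀ ε, DependsOn (H ε) (J : Set V) := by
    intro ε x y hxy
    apply hg
    intro b hb
    have : ∏ u ∈ anc hG o b \ anc hG o v', spin (x u) =
        ∏ u ∈ anc hG o b \ anc hG o v', spin (y u) := by
      apply Finset.prod_congr rfl
      intro u hu
      rw [hxy u (by
        rw [hJ, Finset.mem_coe, Finset.mem_biUnion]
        exact ⟨b, hb, hu⟩)]
    simp only [this]
  have hgedep : DependsOn ge (J : Set V) := by
    intro x y hxy
    simp only [hge]
    rw [hHdep 1 hxy, hHdep (-1) hxy]
  have hgodep : DependsOn go (J : Set V) := by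
    intro x y hxy
    simp only [hgo]
    rw [hHdep 1 hxy, hHdep (-1) hxy]
  have hσsq : ∀ x, σv x * σv x = 1 := by
    intro x
    rcases prod_spin_eq_or (anc hG o v) x with h | h <;> simp only [hσv, h] <;> norm_num
  -- decomposition of `g`
  have hprod : ∀ x : V → Bool, ∏ u ∈ anc hG o v', spin (x u) = spin (x v') * σv x := by
    intro x
    rw [anc_child hG h hd, Finset.prod_insert (notMem_anc_child hG h hd)]
  have hgdec : ∀ x, g (spinMap hG o x) = ge x + σv x * (spin (x v') * go x) := by
    intro x
    have e1 : g (spinMap hG o x) = H (spin (x v') * σv x) x := by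
      apply hg
      intro b hb
      unfold spinMap
      have : ∏ u ∈ anc hG o b, spin (x u) =
          (spin (x v') * σv x) * ∏ u ∈ anc hG o b \ anc hG o v', spin (x u) := by
        rw [← hprod x, mul_comm, Finset.prod_sdiff (anc_side' hG h hd b (hB b hb)).1]
      rw [this]
    have e2 : spin (x v') * σv x = 1 ∨ spin (x v') * σv x = -1 := by
      rw [← hprod x]; exact prod_spin_eq_or _ x
    rw [e1]
    have e3 : σv x * (spin (x v') * go x) = (spin (x v') * σv x) * go x := by ring
    rw [e3]
    rcases e2 with e | e <;> rw [e] <;> simp only [hge, hgo] <;> ring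
  -- one-site mean
  have hξ : ∫ x, spin (x v') ∂P = θ := by
    rw [hPdef, integral_spin_infinitePi]
    have hne : v' ≠ o := by
      rintro rfl
      simp at hd
    have h3 : siteLaw θ o v' = bern θ := by simp [siteLaw, hne]
    rw [h3, integral_bern h0 h1]
  have hσ0 : ∫ x, σv x ∂P = 0 := integral_prod_anc hG h0 h1 o v
  have hξgodep : DependsOn (fun x => spin (x v') * go x) (({v'} ∪ J : Finset V) : Set V) := by
    rw [Finset.coe_union]; exact DependsOn.mul' (dependsOn_spin v') hgodep
  have hξgedep : DependsOn (fun x => spin (x v') * ge x) (({v'} ∪ J : Finset V) : Set V) := by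
    rw [Finset.coe_union]; exact DependsOn.mul' (dependsOn_spin v') hgedep
  have hξgo : ∫ x, spin (x v') * go x ∂P = θ * ∫ x, go x ∂P := by
    rw [hPdef, integral_mul_of_disjoint (siteLaw θ o) {v'} J hv'J _ _ (dependsOn_spin v') hgodep,
      ← hPdef, hξ]
  have hFσdep : DependsOn (fun x => F x * σv x) (I : Set V) := by
    have := DependsOn.mul' hFdep hσdep
    rwa [Set.union_self] at this
  -- E[f g]
  have E1 : ∫ x, F x * g (spinMap hG o x) ∂P =
      (∫ x, F x ∂P) * (∫ x, ge x ∂P) + (∫ x, F x * σv x ∂P) * (θ * ∫ x, go x ∂P) := by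
    have e : ∀ x, F x * g (spinMap hG o x) =
        F x * ge x + (F x * σv x) * (spin (x v') * go x) := by
      intro x; rw [hgdec x]; ring
    simp_rw [e]
    rw [integral_add]
    · rw [hPdef, integral_mul_of_disjoint (siteLaw θ o) I J hIJ _ _ hFdep hgedep,
        integral_mul_of_disjoint (siteLaw θ o) I ({v'} ∪ J) hIv'J _ _ hFσdep hξgodep,
        ← hPdef, hξgo]
    · refine integrable_of_dependsOn P _ (I ∪ J) ?_
      rw [Finset.coe_union]; exact DependsOn.mul' hFdep hgedep
    · refine integrable_of_dependsOn P _ (I ∪ ({v'} ∪ J)) ?_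
      rw [Finset.coe_union]; exact DependsOn.mul' hFσdep hξgodep
  have E2 : ∫ x, g (spinMap hG o x) ∂P = ∫ x, ge x ∂P := by
    simp_rw [hgdec]
    rw [integral_add]
    · rw [hPdef, integral_mul_of_disjoint (siteLaw θ o) I ({v'} ∪ J) hIv'J _ _ hσdep hξgodep,
        ← hPdef, hσ0]
      simp
    · exact integrable_of_dependsOn P _ J hgedep
    · refine integrable_of_dependsOn P _ (I ∪ ({v'} ∪ J)) ?_
      rw [Finset.coe_union]; exact DependsOn.mul' hσdep hξgodep
  have E3 : ∫ x, spin (spinMap hG o x v') * g (spinMap hG o x) ∂P = ∫ x, go x ∂P := by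
    have e : ∀ x, spin (spinMap hG o x v') * g (spinMap hG o x) =
        σv x * (spin (x v') * ge x) + go x := by
      intro x
      rw [spin_spinMap, hprod x, hgdec x]
      have h1 := hσsq x
      have h2 := spin_sq (x v')
      calc spin (x v') * σv x * (ge x + σv x * (spin (x v') * go x))
          = σv x * (spin (x v') * ge x) +
            (spin (x v') * spin (x v')) * (σv x * σv x) * go x := by ring
        _ = _ := by rw [h1, h2]; ring
    simp_rw [e]
    rw [integral_add]
    · rw [hPdef, integral_mul_of_disjoint (siteLaw θ o) I ({v'} ∪ J) hIv'J _ _ hσdep hξgedep,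
        ← hPdef, hσ0]
      simp
    · refine integrable_of_dependsOn P _ (I ∪ ({v'} ∪ J)) ?_
      rw [Finset.coe_union]; exact DependsOn.mul' hσdep hξgedep
    · exact integrable_of_dependsOn P _ J hgodep
  have E4 : ∫ x, spin (spinMap hG o x v) * f (spinMap hG o x) ∂P = ∫ x, F x * σv x ∂P := by
    congr 1
    ext x
    rw [spin_spinMap, mul_comm]
  rw [E2, E3, E4]
  rw [E1]
  ring

theorem isTreeIsing_isingMeasure (hG : G.IsTree) (h0 : 0 ≤ θ) (h1 : θ ≤ 1) (o : V) :
    IsTreeIsing G θ (isingMeasure hG θ o) := by
  have hpr : ∀ v, IsProbabilityMeasure (siteLaw θ o v) := isProbabilityMeasure_siteLaw h0 h1 o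
  refine ⟨?_, ?_, ?_⟩
  · exact Measure.isProbabilityMeasure_map (measurable_spinMap hG o).aemeasurable
  · intro v
    rw [isingMeasure, integral_map (measurable_spinMap hG o).aemeasurable
      (measurable_of_dependsOn _ {v} (dependsOn_spin v)).aestronglyMeasurable]
    simp_rw [spin_spinMap]
    exact integral_prod_anc hG h0 h1 o v
  · intro v v' h A B hA hB f g hf hg
    have hc := IsTree.dist_cases hG h o
    rw [G.dist_comm (u := v), G.dist_comm (u := v')] at hc
    rcases hc with hc | hc
    · have := edge_split_child hG h0 h1 o h.symm hc B A hB hA g f hg hf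
      simp_rw [mul_comm (g _) (f _)] at this
      rw [this]
      ring
    · exact edge_split_child hG h0 h1 o h hc A B hA hB f g hf hg

theorem exists_isTreeIsing (hG : G.IsTree) (h0 : 0 ≤ θ) (h1 : θ < 1) :
    ∃ μ : Measure (V → Bool), IsTreeIsing G θ μ := by
  obtain ⟨o⟩ := hG.connected.nonempty
  exact ⟨_, isTreeIsing_isingMeasure hG h0 h1.le o⟩

/-! ## From the Markov structure to the cylinder formula -/

/-- If `r` is on the `v`-side and `a` on the `v'`-side of the edge `v v'`, the distance from `r` to
`a` is at least the distance from `r` to `v'` plus the distance from `v'` to `a`. -/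
theorem dist_through (hG : G.IsTree) {r v v' a : V} (h : G.Adj v v')
    (hr : G.dist v r < G.dist v' r) (ha : G.dist v' a < G.dist v a) :
    G.dist r v' + G.dist v' a ≤ G.dist r a := by
  classical
  have hd : G.dist r v' = G.dist r v + 1 := by
    have := IsTree.dist_cases hG h r
    rw [G.dist_comm (u := r), G.dist_comm (u := r)]
    omega
  have hmem : v' ∈ (tpath hG r a).support := by
    have := (anc_side' hG h hd a ha).1 (self_mem_anc hG r v')
    unfold anc at this
    exact List.mem_toFinset.1 this
  have h1 := congrArg SimpleGraph.Walk.length ((tpath hG r a).take_spec hmem)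
  rw [SimpleGraph.Walk.length_append, length_tpath] at h1
  have h2 := SimpleGraph.dist_le ((tpath hG r a).takeUntil v' hmem)
  have h3 := SimpleGraph.dist_le ((tpath hG r a).dropUntil v' hmem)
  omega

/-- In a connected set of vertices of a tree, the neighbour of `x` towards another vertex of the
set is in the set. -/
theorem exists_parent_mem (hG : G.IsTree) {D : Set V} (hD : (G.induce D).Connected) {r x : V}
    (hr : r ∈ D) (hx : x ∈ D) (hxr : x ≠ r) :
    ∃ p ∈ D, G.Adj x p ∧ G.dist p r + 1 = G.dist x r := by
  obtain ⟨p, hp1, hp2⟩ := exists_adj_dist hG.connected hxr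
  refine ⟨p, ?_, hp1, hp2⟩
  -- walk inside `D` from `x` to `r`, look at the first crossing of the edge `p x`
  have key : ∀ (a b : D), (G.induce D).Walk a b → G.dist x a < G.dist p a →
      G.dist p b < G.dist x b → p ∈ D := by
    intro a b w
    induction w with
    | nil => intro h1 h2; omega
    | @cons a c b hac w ih =>
      intro h1 h2
      by_cases hc : G.dist x c < G.dist p c
      · exact ih hc h2
      · have hne := IsTree.dist_ne hG hp1 c
        have hlt : G.dist p c < G.dist x c := by omega
        have hac' : G.Adj a c := by simpa using hac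
        have := (IsTree.cross hG hp1.symm hac' h1 hlt).2
        rw [← this]
        exact c.2
  obtain ⟨w⟩ := hD.preconnected ⟨x, hx⟩ ⟨r, hr⟩
  apply key _ _ w
  · have : G.dist p x = 1 := SimpleGraph.dist_eq_one_iff_adj.2 hp1.symm
    simp [this]
  · change G.dist p r < G.dist x r
    omega

open Classical in
/-- The indicator of agreement with `η` on `D`. -/
noncomputable def ind (D : Finset V) (η s : V → Bool) : ℝ :=
  if ∀ v ∈ D, s v = η v then 1 else 0

theorem dependsOn_ind (D : Finset V) (η : V → Bool) : DependsOn (ind D η) (D : Set V) := by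
  classical
  intro x y hxy
  unfold ind
  have : (∀ v ∈ D, x v = η v) ↔ (∀ v ∈ D, y v = η v) := by
    constructor
    · intro h v hv; rw [← hxy v hv]; exact h v hv
    · intro h v hv; rw [hxy v hv]; exact h v hv
  simp only [this]

theorem ind_singleton (v : V) (η s : V → Bool) :
    ind {v} η s = (1 + spin (η v) * spin (s v)) / 2 := by
  classical
  unfold ind
  simp only [Finset.mem_singleton, forall_eq]
  cases h1 : s v <;> cases h2 : η v <;> simp [spin]

theorem ind_insert [DecidableEq V] (v : V) (D : Finset V) (η s : V → Bool) :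
    ind (insert v D) η s = ind D η s * ind {v} η s := by
  unfold ind
  by_cases h1 : ∀ w ∈ D, s w = η w
  · by_cases h2 : s v = η v
    · have : ∀ w ∈ insert v D, s w = η w := by
        intro w hw
        rcases Finset.mem_insert.1 hw with rfl | hw
        · exact h2
        · exact h1 w hw
      rw [if_pos this, if_pos h1, if_pos (by simpa using h2), mul_one]
    · simp [h2]
  · have : ¬ ∀ w ∈ insert v D, s w = η w := fun h => h1 fun w hw => h w (Finset.mem_insert_of_mem hw)
    rw [if_neg this, if_neg h1, zero_mul]

theorem spin_mul_ind {D : Finset V} {p : V} (hp : p ∈ D) (η s : V → Bool) :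
    spin (s p) * ind D η s = spin (η p) * ind D η s := by
  classical
  unfold ind
  split_ifs with h
  · rw [h p hp]
  · simp

open Classical in
/-- The product of the edge weights inside `D`. -/
noncomputable def wprod (G : SimpleGraph V) (θ : ℝ) (D : Finset V) (η : V → Bool) : ℝ :=
  ∏ e ∈ D.sym2 with e ∈ G.edgeSet, edgeWeight θ η e

theorem wprod_singleton (v : V) (η : V → Bool) : wprod G θ {v} η = 1 := by
  classical
  unfold wprod
  rw [Finset.prod_eq_one]
  intro e he
  rw [Finset.mem_filter] at he
  obtain ⟨h1, h2⟩ := he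
  simp only [Finset.sym2_singleton, Finset.mem_singleton] at h1
  rw [h1] at h2
  simp at h2

theorem wprod_insert [DecidableEq V] {D : Finset V} {p l : V} (hl : l ∉ D) (hp : p ∈ D)
    (hadj : G.Adj l p) (honly : ∀ a ∈ D, G.Adj l a → a = p) (η : V → Bool) :
    wprod G θ (insert l D) η =
      (1 + θ * spin (η l) * spin (η p)) / 2 * wprod G θ D η := by
  classical
  unfold wprod
  have hset : (insert l D).sym2.filter (· ∈ G.edgeSet) =
      insert s(l, p) (D.sym2.filter (· ∈ G.edgeSet)) := by
    ext e
    induction e using Sym2.ind with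
    | _ a b =>
    simp only [Finset.mem_filter, Finset.mk_mem_sym2_iff, Finset.mem_insert,
      SimpleGraph.mem_edgeSet]
    constructor
    · rintro ⟨⟨ha, hb⟩, hab⟩
      rcases ha with rfl | ha
      · rcases hb with rfl | hb
        · exact absurd hab (G.loopless.irrefl _)
        · left; rw [honly b hb hab]
      · rcases hb with rfl | hb
        · left; rw [honly a ha hab.symm]; exact Sym2.eq_swap
        · right; exact ⟨⟨ha, hb⟩, hab⟩
    · rintro (h | ⟨⟨ha, hb⟩, hab⟩)
      · rw [Sym2.eq_iff] at h
        rcases h with ⟨rfl, rfl⟩ | ⟨rfl, rfl⟩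
        · exact ⟨⟨Or.inl rfl, Or.inr hp⟩, hadj⟩
        · exact ⟨⟨Or.inr hp, Or.inl rfl⟩, hadj.symm⟩
      · exact ⟨⟨Or.inr ha, Or.inr hb⟩, hab⟩
  have hnot : s(l, p) ∉ D.sym2.filter (· ∈ G.edgeSet) := by
    simp [hl]
  rw [hset, Finset.prod_insert hnot]
  rfl

theorem integral_ind (hG : G.IsTree) {μ : Measure (V → Bool)} (hμ : IsTreeIsing G θ μ)
    (η : V → Bool) (r : V) (n : ℕ) (D : Finset V) (hn : D.card = n + 1) (hr : r ∈ D)
    (hD : ∀ x ∈ D, x ≠ r → ∃ p ∈ D, G.Adj x p ∧ G.dist p r + 1 = G.dist x r) :
    ∫ s, ind D η s ∂μ = 1 / 2 * wprod G θ D η := by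
  classical
  have := hμ.isProb
  induction n generalizing D with
  | zero =>
    obtain ⟨v, rfl⟩ := Finset.card_eq_one.1 hn
    rw [wprod_singleton]
    simp_rw [ind_singleton]
    have hi : Integrable (fun s : V → Bool => spin (η v) * spin (s v)) μ := by
      apply Integrable.const_mul
      exact integrable_of_dependsOn μ _ {v} (dependsOn_spin v)
    rw [integral_div, integral_add (integrable_const _) hi, integral_const_mul, hμ.mean_zero]
    simp
  | succ n ih =>
    -- farthest vertex
    obtain ⟨l, hl, hmax⟩ := Finset.exists_max_image D (fun x => G.dist x r) ⟨r, hr⟩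
    have hlr : l ≠ r := by
      rintro rfl
      have h1 : ∀ x ∈ D, x = l := by
        intro x hx
        have := hmax x hx
        simp only [SimpleGraph.dist_self, Nat.le_zero] at this
        exact (hG.connected.dist_eq_zero_iff).1 this
      have h2 : D.card ≤ 1 := Finset.card_le_one.2 fun a ha b hb => by rw [h1 a ha, h1 b hb]
      omega
    obtain ⟨p, hp, hadj, hdist⟩ := hD l hl hlr
    have hpl : p ≠ l := hadj.ne'
    set D' : Finset V := D.erase l with hD'
    have hDins : D = insert l D' := (Finset.insert_erase hl).symm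
    have hlD' : l ∉ D' := Finset.notMem_erase l D
    have hpD' : p ∈ D' := Finset.mem_erase.2 ⟨hpl, hp⟩
    have hrD' : r ∈ D' := Finset.mem_erase.2 ⟨hlr.symm, hr⟩
    have hcard : D'.card = n + 1 := by
      rw [hD', Finset.card_erase_of_mem hl, hn]; rfl
    have hPC' : ∀ x ∈ D', x ≠ r → ∃ q ∈ D', G.Adj x q ∧ G.dist q r + 1 = G.dist x r := by
      intro x hx hxr
      obtain ⟨q, hq1, hq2, hq3⟩ := hD x (Finset.mem_of_mem_erase hx) hxr
      refine ⟨q, Finset.mem_erase.2 ⟨?_, hq1⟩, hq2, hq3⟩
      rintro rfl
      have := hmax x (Finset.mem_of_mem_erase hx)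
      omega
    have hside : ∀ a ∈ D', G.dist p a < G.dist l a := by
      intro a ha
      by_contra hcon
      have hne := IsTree.dist_ne hG hadj a
      have hlt : G.dist l a < G.dist p a := by omega
      have h1 := dist_through hG (r := r) hadj.symm (by omega) hlt
      have h2 := hmax a (Finset.mem_of_mem_erase ha)
      have h3 : 0 < G.dist l a := by
        apply hG.connected.pos_dist_of_ne
        rintro rfl
        exact hlD' ha
      rw [G.dist_comm (u := r) (v := l), G.dist_comm (u := r) (v := a)] at h1
      omega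
    have honly : ∀ a ∈ D', G.Adj l a → a = p := by
      intro a ha hla
      have h1 := hside a ha
      have h2 : G.dist l a = 1 := SimpleGraph.dist_eq_one_iff_adj.2 hla
      have h3 : G.dist p a = 0 := by omega
      exact ((hG.connected.dist_eq_zero_iff).1 h3).symm
    have hind : ∀ s, ind D η s = ind D' η s * ind {l} η s := by
      intro s
      conv_lhs => rw [hDins]
      exact ind_insert l D' η s
    have hsplit := hμ.edge_split p l hadj.symm D' {l} hside (by
      intro b hb
      rw [Finset.mem_singleton.1 hb]
      have : G.dist p l = 1 := SimpleGraph.dist_eq_one_iff_adj.2 hadj.symm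
      simp [this]) (ind D' η) (ind {l} η) (dependsOn_ind D' η) (dependsOn_ind {l} η)
    have hg1 : ∫ s, ind {l} η s ∂μ = 1 / 2 := by
      simp_rw [ind_singleton]
      have hi : Integrable (fun s : V → Bool => spin (η l) * spin (s l)) μ := by
        apply Integrable.const_mul
        exact integrable_of_dependsOn μ _ {l} (dependsOn_spin l)
      rw [integral_div, integral_add (integrable_const _) hi, integral_const_mul, hμ.mean_zero]
      simp
    have hg2 : ∫ s, spin (s l) * ind {l} η s ∂μ = spin (η l) / 2 := by
      simp_rw [spin_mul_ind (Finset.mem_singleton_self l)]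
      rw [integral_const_mul, hg1]
      ring
    have hf2 : ∫ s, spin (s p) * ind D' η s ∂μ = spin (η p) * ∫ s, ind D' η s ∂μ := by
      simp_rw [spin_mul_ind hpD']
      rw [integral_const_mul]
    simp_rw [hind]
    rw [hsplit, hg1, hg2, hf2, ih D' hcard hrD' hPC']
    conv_rhs => rw [hDins]
    rw [wprod_insert hlD' hpD' hadj honly]
    ring

theorem IsTreeIsing.isFreeIsing (hG : G.IsTree) {μ : Measure (V → Bool)}
    (hμ : IsTreeIsing G θ μ) : IsFreeIsing G θ μ := by
  classical
  have := hμ.isProb
  intro D hD η
  obtain ⟨⟨r, hr⟩⟩ := hD.nonempty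
  have hcard : D.card = (D.card - 1) + 1 := by
    have : 0 < D.card := Finset.card_pos.2 ⟨r, hr⟩
    omega
  have h1 := integral_ind hG hμ η r (D.card - 1) D hcard hr (fun x hx hxr =>
    exists_parent_mem hG hD hr hx hxr)
  have hmeas : MeasurableSet {s : V → Bool | ∀ v ∈ D, s v = η v} := by
    have : {s : V → Bool | ∀ v ∈ D, s v = η v} = ⋂ v ∈ D, {s | s v = η v} := by
      ext s; simp
    rw [this]
    exact Finset.measurableSet_biInter D fun v _ => (measurable_pi_apply v) (measurableSet_singleton _)
  have h2 : ∫ s, ind D η s ∂μ = μ.real {s : V → Bool | ∀ v ∈ D, s v = η v} := by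
    rw [← integral_indicator_one hmeas]
    congr 1
    ext s
    simp only [ind, Set.indicator_apply, Set.mem_ofPred_eq, Pi.one_apply]
  rw [h2] at h1
  have h3 : μ {s : V → Bool | ∀ v ∈ D, s v = η v} =
      ENNReal.ofReal (μ.real {s : V → Bool | ∀ v ∈ D, s v = η v}) := by
    rw [ofReal_measureReal]
  rw [h3, h1]
  rfl

/-! ## Uniqueness -/

theorem connected_induce_singleton (o : V) :
    (G.induce (({o} : Finset V) : Set V)).Connected := by
  have : Subsingleton (({o} : Finset V) : Set V) := by
    constructor
    rintro ⟨a, ha⟩ ⟨b, hb⟩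
    simp only [Finset.coe_singleton, Set.mem_singleton_iff] at ha hb
    simp [ha, hb]
  have : Nonempty (({o} : Finset V) : Set V) := ⟨⟨o, by simp⟩⟩
  exact SimpleGraph.Connected.of_subsingleton

theorem IsFreeIsing.isFiniteMeasure (hG : G.IsTree) {μ : Measure (V → Bool)}
    (hμ : IsFreeIsing G θ μ) : IsFiniteMeasure μ := by
  obtain ⟨o⟩ := hG.connected.nonempty
  constructor
  have h1 := hμ {o} (connected_induce_singleton o) (fun _ => true)
  have h2 := hμ {o} (connected_induce_singleton o) (fun _ => false)
  have hsub : (Set.univ : Set (V → Bool)) ⊆ {s | ∀ v ∈ ({o} : Finset V), s v = true} ∪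
      {s | ∀ v ∈ ({o} : Finset V), s v = false} := by
    intro s _
    cases h : s o
    · right; simpa using h
    · left; simpa using h
  calc μ Set.univ ≤ μ ({s | ∀ v ∈ ({o} : Finset V), s v = true} ∪
      {s | ∀ v ∈ ({o} : Finset V), s v = false}) := measure_mono hsub
    _ ≤ _ := measure_union_le _ _
    _ < ⊤ := by
      rw [h1, h2]
      exact ENNReal.add_lt_top.2 ⟨ENNReal.ofReal_lt_top, ENNReal.ofReal_lt_top⟩

theorem IsFreeIsing.map_restrict_eq {μ ν : Measure (V → Bool)}
    (hμ : IsFreeIsing G θ μ) (hν : IsFreeIsing G θ ν) (D : Finset V)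
    (hD : (G.induce (D : Set V)).Connected) :
    μ.map D.restrict = ν.map D.restrict := by
  classical
  have hmeas : Measurable (D.restrict : (V → Bool) → (D → Bool)) :=
    measurable_pi_lambda _ fun i => measurable_pi_apply _
  apply Measure.ext_of_singleton
  intro y
  rw [Measure.map_apply hmeas (measurableSet_singleton y),
    Measure.map_apply hmeas (measurableSet_singleton y)]
  set η : V → Bool := fun v => if h : v ∈ D then y ⟨v, h⟩ else false with hη
  have hset : (D.restrict : (V → Bool) → (D → Bool)) ⁻¹' {y} = {s | ∀ v ∈ D, s v = η v} := by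
    ext s
    simp only [Set.mem_preimage, Set.mem_singleton_iff, Set.mem_ofPred_eq]
    constructor
    · intro h v hv
      rw [hη]
      simp only [hv, dif_pos]
      rw [← h]
      rfl
    · intro h
      ext ⟨v, hv⟩
      have := h v hv
      rw [hη] at this
      simp only [hv, dif_pos] at this
      exact this
  rw [hset, hμ D hD η, hν D hD η]

theorem IsFreeIsing.unique (hG : G.IsTree) {μ ν : Measure (V → Bool)}
    (hμ : IsFreeIsing G θ μ) (hν : IsFreeIsing G θ ν) : μ = ν := by
  classical
  have hfin := hμ.isFiniteMeasure hG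
  obtain ⟨o⟩ := hG.connected.nonempty
  have key : ∀ I : Finset V, ν.map I.restrict = μ.map I.restrict := by
    intro I
    obtain ⟨D, hD1, hD2⟩ := SimpleGraph.extend_finset_to_connected hG.connected.preconnected
      (t := insert o I) ⟨o, Finset.mem_insert_self _ _⟩
    have hI : I ⊆ D := (Finset.subset_insert _ _).trans hD1
    have h1 := hμ.map_restrict_eq hν D hD2
    have h2 : (I.restrict : (V → Bool) → (I → Bool)) =
        (Finset.restrict₂ (π := fun _ => Bool) hI) ∘ D.restrict := rfl
    have hm1 : Measurable (D.restrict : (V → Bool) → (D → Bool)) :=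
      measurable_pi_lambda _ fun i => measurable_pi_apply _
    have hm2 : Measurable (Finset.restrict₂ (π := fun _ => Bool) hI) :=
      measurable_pi_lambda _ fun i => measurable_pi_apply _
    rw [h2, ← Measure.map_map hm2 hm1, ← Measure.map_map hm2 hm1, h1]
  exact IsProjectiveLimit.unique (P := fun I => μ.map I.restrict) (fun I => rfl) key

/-! ## Invariance under automorphisms -/

theorem measurable_act (g : G ≃g G) : Measurable (act g : (V → Bool) → (V → Bool)) :=
  measurable_pi_lambda _ fun _ => measurable_pi_apply _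

open Classical in
theorem dependsOn_act {β : Type*} (g : G ≃g G) (F : (V → Bool) → β) (A : Finset V)
    (hF : DependsOn F (A : Set V)) :
    DependsOn (fun s => F (act g s)) ((A.image g.symm : Finset V) : Set V) := by
  intro x y hxy
  apply hF
  intro a ha
  exact hxy (g.symm a) (by
    rw [Finset.mem_coe, Finset.mem_image]
    exact ⟨a, ha, rfl⟩)

theorem IsTreeIsing.map_act_isTreeIsing {μ : Measure (V → Bool)}
    (hμ : IsTreeIsing G θ μ) (g : G ≃g G) : IsTreeIsing G θ (μ.map (act g)) := by
  classical
  have := hμ.isProb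
  have hcv : ∀ (F : (V → Bool) → ℝ) (I : Finset V), DependsOn F (I : Set V) →
      ∫ s, F s ∂(μ.map (act g)) = ∫ s, F (act g s) ∂μ := by
    intro F I hF
    rw [integral_map (measurable_act g).aemeasurable
      (measurable_of_dependsOn F I hF).aestronglyMeasurable]
  refine ⟨Measure.isProbabilityMeasure_map (measurable_act g).aemeasurable, ?_, ?_⟩
  · intro v
    rw [hcv _ {v} (dependsOn_spin v)]
    exact hμ.mean_zero (g.symm v)
  · intro v v' h A B hA hB f k hf hk
    have hfk : DependsOn (fun s => f s * k s) ((A ∪ B : Finset V) : Set V) := by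
      rw [Finset.coe_union]; exact DependsOn.mul' hf hk
    have hvf : DependsOn (fun s : V → Bool => spin (s v) * f s)
        (({v} ∪ A : Finset V) : Set V) := by
      rw [Finset.coe_union]; exact DependsOn.mul' (dependsOn_spin v) hf
    have hvk : DependsOn (fun s : V → Bool => spin (s v') * k s)
        (({v'} ∪ B : Finset V) : Set V) := by
      rw [Finset.coe_union]; exact DependsOn.mul' (dependsOn_spin v') hk
    rw [hcv _ _ hfk, hcv _ _ hf, hcv _ _ hk, hcv _ _ hvf, hcv _ _ hvk]
    apply hμ.edge_split (g.symm v) (g.symm v') (g.symm.map_rel_iff.2 h)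
      (A.image g.symm) (B.image g.symm) _ _ _ _ (dependsOn_act g f A hf) (dependsOn_act g k B hk)
    · intro a ha
      obtain ⟨b, hb, rfl⟩ := Finset.mem_image.1 ha
      rw [dist_iso g.symm, dist_iso g.symm]
      exact hA b hb
    · intro a ha
      obtain ⟨b, hb, rfl⟩ := Finset.mem_image.1 ha
      rw [dist_iso g.symm, dist_iso g.symm]
      exact hB b hb

theorem IsTreeIsing.map_act (hG : G.IsTree) {μ : Measure (V → Bool)}
    (hμ : IsTreeIsing G θ μ) (g : G ≃g G) : μ.map (act g) = μ :=
  ((hμ.map_act_isTreeIsing g).isFreeIsing hG).unique hG (hμ.isFreeIsing hG)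

end Vale.Agent.P161
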